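import Vale.Agent.P255.Ode

/-!
# P205: flow boxes in dimension two

Near a point where a smooth vector field `w` does not vanish there are smooth coordinates
`κ = (x, y)` with `dx (w) = 1`, `dy (w) = 0`.
-/

open Set Filter Topology Metric
open scoped ContDiff

noncomputable section

namespace Vale.Agent.P205.Full

variable {F : Type} [NormedAddCommGroup F] [NormedSpace ℝ F] [FiniteDimensional ℝ F]

omit [FiniteDimensional ℝ F] in
/-- A nonzero vector of a two-dimensional space is the first vector of a linear frame. -/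
lemma exists_frame (hF : Module.finrank ℝ F = 2) (u : F) (hu : u ≠ 0) :
    ∃ v : F, ∃ e : (ℝ × ℝ) ≃L[ℝ] F, ∀ s r : ℝ, e (s, r) = s • u + r • v := by
  have hfin : FiniteDimensional ℝ F := Module.finite_of_finrank_pos (by omega)
  obtain ⟨v, hv⟩ : ∃ v : F, v ∉ Submodule.span ℝ {u} := by
    by_contra hcon
    push Not at hcon
    have h1 : Submodule.span ℝ {u} = ⊤ := by
      rw [Submodule.eq_top_iff']; exact hcon
    have h2 : Module.finrank ℝ (Submodule.span ℝ {u}) = 1 := finrank_span_singleton hu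
    rw [h1, finrank_top] at h2
    omega
  let L : (ℝ × ℝ) →ₗ[ℝ] F :=
    (LinearMap.toSpanSingleton ℝ F u).coprod (LinearMap.toSpanSingleton ℝ F v)
  have hL : ∀ s r : ℝ, L (s, r) = s • u + r • v := by
    intro s r; simp [L]
  have hinj : Function.Injective L := by
    rw [← LinearMap.ker_eq_bot, LinearMap.ker_eq_bot']
    rintro ⟨s, r⟩ h
    rw [hL] at h
    have hr : r = 0 := by
      by_contra hr
      apply hv
      have : v = (-(r⁻¹ * s)) • u := by
        have h3 : r • v = -(s • u) := by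
          rw [eq_neg_iff_add_eq_zero, add_comm]; exact h
        calc v = r⁻¹ • (r • v) := by rw [smul_smul, inv_mul_cancel₀ hr, one_smul]
          _ = _ := by rw [h3, smul_neg, smul_smul, neg_smul]
      rw [this]
      exact Submodule.smul_mem _ _ (Submodule.mem_span_singleton_self u)
    subst hr
    rw [zero_smul, add_zero] at h
    have hs : s = 0 := (smul_eq_zero.1 h).resolve_right hu
    rw [hs]; rfl
  let e : (ℝ × ℝ) ≃ₗ[ℝ] F := LinearEquiv.ofInjectiveOfFinrankEq L hinj (by simp [hF])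
  refine ⟨v, e.toContinuousLinearEquiv, fun s r => ?_⟩
  have : e (s, r) = L (s, r) := rfl
  exact this.trans (hL s r)

/-- Flow box: local coordinates straightening a smooth vector field on a two-dimensional space. -/
theorem exists_flowBox (hF : Module.finrank ℝ F = 2) (w : F → F) (U : Set F) (hU : IsOpen U)
    (hw : ContDiffOn ℝ ∞ w U) (p : F) (hp : p ∈ U) (hwp : w p ≠ 0) :
    ∃ κ : OpenPartialHomeomorph F (ℝ × ℝ), p ∈ κ.source ∧ κ.source ⊆ U ∧ κ p = 0 ∧
      ContDiffOn ℝ ∞ κ κ.source ∧ ContDiffOn ℝ ∞ κ.symm κ.target ∧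
      ∀ q ∈ κ.source, fderiv ℝ κ q (w q) = (1, 0) := by
  have : CompleteSpace F := FiniteDimensional.complete ℝ F
  obtain ⟨ε, hε, W, hW, hpW, Φ, h0, h1, h2⟩ :=
    Vale.Agent.P255.exists_flow_smooth w U hU hw p hp
  obtain ⟨v, e, he⟩ := exists_frame hF (w p) hwp
  let Ψ : ℝ × ℝ → F := fun z => Φ z.1 (p + z.2 • v)
  let pr : ℝ × ℝ → ℝ × F := fun z => (z.1, p + z.2 • v)
  have hpr : ContDiff ℝ ∞ pr := by fun_prop
  let O₁ : Set (ℝ × ℝ) := pr ⁻¹' (Ioo (-ε) ε ×ˢ W)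
  have hO₁ : IsOpen O₁ := (isOpen_Ioo.prod hW).preimage hpr.continuous
  have h0O : (0 : ℝ × ℝ) ∈ O₁ := by
    refine ⟨⟨?_, ?_⟩, ?_⟩
    · simpa [pr] using hε
    · simpa [pr] using hε
    · simpa [pr] using hpW
  have hΨ : ContDiffOn ℝ ∞ Ψ O₁ := h2.comp hpr.contDiffOn (fun z hz => hz)
  have hΨ0 : Ψ 0 = p := by
    have := h0 p hpW
    simpa [Ψ] using this
  have hΨat : ∀ z ∈ O₁, ContDiffAt ℝ ∞ Ψ z := fun z hz => hΨ.contDiffAt (hO₁.mem_nhds hz)
  -- the derivative at the origin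
  have hd0 : HasFDerivAt Ψ (e : (ℝ × ℝ) →L[ℝ] F) 0 := by
    have hdiff : DifferentiableAt ℝ Ψ 0 := (hΨat 0 h0O).differentiableAt (by simp)
    have hL := hdiff.hasFDerivAt
    set L := fderiv ℝ Ψ 0 with hLdef
    have hL1 : L (1, 0) = w p := by
      have hc : HasDerivAt (fun s : ℝ => ((s, 0) : ℝ × ℝ)) (1, 0) 0 :=
        (hasDerivAt_id (0 : ℝ)).prodMk (hasDerivAt_const 0 (0 : ℝ))
      have h3 : HasDerivAt (fun s : ℝ => Ψ (s, 0)) (L (1, 0)) 0 :=
        HasFDerivAt.comp_hasDerivAt (x := (0 : ℝ)) (f := fun s : ℝ => ((s, 0) : ℝ × ℝ)) hL hc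
      have h4 : HasDerivAt (fun s : ℝ => Φ s p) (w (Φ 0 p)) 0 :=
        (h1 p hpW 0 ⟨by linarith, hε⟩).2
      have h5 : (fun s : ℝ => Ψ (s, 0)) = fun s => Φ s p := by
        funext s; simp [Ψ]
      rw [h5] at h3
      rw [h0 p hpW] at h4
      exact h3.unique h4
    have hL2 : L (0, 1) = v := by
      have hc : HasDerivAt (fun r : ℝ => ((0, r) : ℝ × ℝ)) (0, 1) 0 :=
        (hasDerivAt_const (0 : ℝ) (0 : ℝ)).prodMk (hasDerivAt_id 0)
      have h3 : HasDerivAt (fun r : ℝ => Ψ (0, r)) (L (0, 1)) 0 :=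
        HasFDerivAt.comp_hasDerivAt (x := (0 : ℝ)) (f := fun r : ℝ => ((0, r) : ℝ × ℝ)) hL hc
      have h4 : HasDerivAt (fun r : ℝ => p + r • v) v 0 := by
        have := ((hasDerivAt_id (0 : ℝ)).smul_const v).const_add p
        simpa using this
      have h5 : (fun r : ℝ => Ψ (0, r)) =ᶠ[𝓝 0] fun r => p + r • v := by
        have hcont : Tendsto (fun r : ℝ => p + r • v) (𝓝 0) (𝓝 p) := by
          have : ContinuousAt (fun r : ℝ => p + r • v) 0 := by fun_prop
          simpa [ContinuousAt] using this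
        filter_upwards [hcont.eventually (hW.mem_nhds hpW)] with r hr
        exact h0 _ hr
      exact h3.unique (h4.congr_of_eventuallyEq h5)
    have hLe : L = (e : (ℝ × ℝ) →L[ℝ] F) := by
      ext
      · simpa [he] using hL1
      · simpa [he] using hL2
    rw [← hLe]; exact hL
  -- the local inverse
  let G := (hΨat 0 h0O).toOpenPartialHomeomorph Ψ hd0 (by simp)
  have hGc : (G : ℝ × ℝ → F) = Ψ := rfl
  have h0G : (0 : ℝ × ℝ) ∈ G.source :=
    (hΨat 0 h0O).mem_toOpenPartialHomeomorph_source hd0 (by simp)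
  let O₂ : Set (ℝ × ℝ) := O₁ ∩ (fderiv ℝ Ψ) ⁻¹' (range ((↑) : ((ℝ × ℝ) ≃L[ℝ] F) → _))
  have hcontfd : ContinuousOn (fderiv ℝ Ψ) O₁ :=
    hΨ.continuousOn_fderiv_of_isOpen hO₁ (by simp)
  have hO₂ : IsOpen O₂ := hcontfd.isOpen_inter_preimage hO₁ (ContinuousLinearEquiv.isOpen)
  have h0O₂ : (0 : ℝ × ℝ) ∈ O₂ := ⟨h0O, ⟨e, hd0.fderiv.symm⟩⟩
  let κ := (G.restrOpen O₂ hO₂).symm
  have hksrc : ∀ q ∈ κ.source, G.symm q ∈ G.source ∩ O₂ ∧ Ψ (G.symm q) = q := by
    intro q hq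
    have h6 : κ q ∈ κ.target := κ.map_source hq
    have h7 : G.symm q ∈ G.source ∩ O₂ := h6
    have h8 : q ∈ G.target := by
      have h9 : κ.symm (κ q) = q := κ.left_inv hq
      have h10 : G (G.symm q) = q := h9
      rw [← h10]; exact G.map_source h7.1
    exact ⟨h7, G.right_inv h8⟩
  have hktgt : κ.target = G.source ∩ O₂ := rfl
  have hksm : ContDiffOn ℝ ∞ κ κ.source := by
    intro q hq
    obtain ⟨⟨hq1, hq2, ⟨f', hf'⟩⟩, hq3⟩ := hksrc q hq
    have hqT : q ∈ G.target := by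
      rw [← hq3]; exact G.map_source hq1
    have h6 : HasFDerivAt G (f' : (ℝ × ℝ) →L[ℝ] F) (G.symm q) := by
      rw [hf']
      exact ((hΨat _ hq2).differentiableAt (by simp)).hasFDerivAt
    exact (G.contDiffAt_symm hqT h6 (hΨat _ hq2)).contDiffWithinAt
  refine ⟨κ, ?_, ?_, ?_, hksm, ?_, ?_⟩
  · have h6 : κ.symm 0 ∈ κ.source := κ.map_target (by rw [hktgt]; exact ⟨h0G, h0O₂⟩)
    have h7 : κ.symm 0 = p := hΨ0
    rwa [h7] at h6
  · intro q hq
    obtain ⟨⟨_, hq2, _⟩, hq3⟩ := hksrc q hq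
    have h6 := (h1 _ hq2.2 _ hq2.1).1
    have h7 : Φ (pr (G.symm q)).1 (pr (G.symm q)).2 = q := hq3
    rwa [h7] at h6
  · have h7 : κ.symm 0 = p := hΨ0
    rw [← h7]
    exact κ.right_inv (by rw [hktgt]; exact ⟨h0G, h0O₂⟩)
  · exact hΨ.mono fun z hz => hz.2.1
  · intro q hq
    obtain ⟨⟨hq1, hq2, _⟩, hq3⟩ := hksrc q hq
    obtain ⟨z, hz⟩ : ∃ z, z = G.symm q := ⟨_, rfl⟩
    rw [← hz] at hq1 hq2 hq3
    have hkd : HasFDerivAt κ (fderiv ℝ κ q) q :=
      ((hksm.contDiffAt (κ.open_source.mem_nhds hq)).differentiableAt (by simp)).hasFDerivAt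
    have h4 : HasDerivAt (fun s : ℝ => Φ s (p + z.2 • v)) (w q) z.1 := by
      have := (h1 _ hq2.2 _ hq2.1).2
      have h7 : Φ (pr z).1 (pr z).2 = q := hq3
      rw [h7] at this
      exact this
    have hkd' : HasFDerivAt κ (fderiv ℝ κ q) (Φ z.1 (p + z.2 • v)) := by
      have h7 : Φ z.1 (p + z.2 • v) = q := hq3
      rw [h7]; exact hkd
    have h5 : HasDerivAt (fun s : ℝ => κ (Φ s (p + z.2 • v))) (fderiv ℝ κ q (w q)) z.1 :=
      hkd'.comp_hasDerivAt z.1 h4
    have h6 : (fun s : ℝ => κ (Φ s (p + z.2 • v))) =ᶠ[𝓝 z.1] fun s => (s, z.2) := by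
      have hc : ContinuousAt (fun s : ℝ => ((s, z.2) : ℝ × ℝ)) z.1 := by fun_prop
      have hT : (z.1, z.2) ∈ κ.target := by
        rw [hktgt, hz]
        exact (hksrc q hq).1
      filter_upwards [hc.eventually (κ.open_target.mem_nhds hT)] with s hs
      exact κ.right_inv hs
    have h7 : HasDerivAt (fun s : ℝ => ((s, z.2) : ℝ × ℝ)) (1, 0) z.1 :=
      (hasDerivAt_id z.1).prodMk (hasDerivAt_const z.1 z.2)
    exact h5.unique (h7.congr_of_eventuallyEq h6)

end Vale.Agent.P205.Full
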